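import Vale.Agent.P088.R2.H455.E.Top
import Vale.Agent.P088.R2.H338.C.TubS
import Vale.Agent.P088.R2.H354.T.Et
import Vale.Agent.P088.R2.H867.Z.Cz2
import Vale.Agent.P088.R2.H660.P.Let
import Vale.Agent.P088.R2.H747.A.Rows
import Vale.Agent.P088.R2.H509.E.PT
import Vale.Agent.P088.R2.H165.Tab

/-!
# P088, stage 3, EST': the letters of the 17 zones

`Mz L q d k`: the margin (without the factor `χ_k²`), `coz L e q d k`: the cost. The structure `Lc`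
contains the constants (functions of the constants `q`) and the functions which are not yet fixed;
`e` is the small parameter of the costs of the zones `z0`, `A1`, `A2`, `Af` (it is chosen last).
-/

open Set Filter MeasureTheory
open scoped ContDiff Topology Matrix

noncomputable section

namespace Vale.Agent.P088.R2.H455.E

open Vale.Agent.P088.LR Vale.Agent.P088.HY
open Vale.Agent.P088.R2.H31.EP
open Vale.Agent.P088.R2.H551.E
open Vale.Agent.P088.R2.H867.EP (Zo zos mem_zos)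
open Vale.Agent.P088.R2.H867.Z (sq1 sqp Zc)
open Vale.Agent.P088.R2.H464.Cu (mid dif rq)
open Vale.Agent.P088.R2.H338.C (TL)
open Vale.Agent.P088.R2.H338.TC (Na rx ry)

variable {n : ℕ}

/-- The numbers of a point; `k` is the convexity weight of zone II. -/
def nu (k : Cst → Pk n → VV n → ℝ) (q : Cst) (d : Pk n) : H165.Tab.Nu (VV n) where
  En := d.E q
  N := d.N q
  K := d.Kf q
  r2 := d.r2
  m := d.m q
  k := k q d
  F₁ := d.sx.F (d.W q)
  F₂ := d.sy.F (d.W q)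

/-- The constants and the functions of the letters. -/
structure Lc (n : ℕ) where
  /-- region 0: margin, cost, `s = cs σ / R` -/
  c0 : Cst → ℝ
  C0 : Cst → ℝ
  cs : Cst → ℝ
  /-- region I: margin, cost, tube letters, their cost -/
  cI : Cst → ℝ
  CI : Cst → ℝ
  cN : Cst → ℝ
  CN : Cst → ℝ
  /-- zone II: the convexity weight, the constants of the cost -/
  kz : Cst → Pk n → VV n → ℝ
  C2 : Cst → ℝ
  K2 : Cst → ℝ
  /-- the core: margin, cost -/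
  cB : Cst → ℝ
  CB : Cst → ℝ
  ZB : Cst → Pk n → VV n → ℝ
  ZB' : Cst → Pk n → VV n → ℝ
  /-- the tubes -/
  cT : Cst → ℝ
  CT : Cst → ℝ
  /-- zone A -/
  kA : Cst → ℝ
  μA : Cst → ℝ
  /-- the passes -/
  cP : Cst → ℝ
  CP : Cst → ℝ
  GP : Cst → Pk n → VV n → ℝ
  om : Zo → Cst → Pk n → VV n → ℝ
  /-- the other zones: `RSn`, `RSf`, `iH`, `iF`, `iS` -/
  FM : Zo → Cst → Pk n → Q8 (VV n)
  FC : Zo → Cst → Pk n → Q8 (VV n)

/-- The slope `s` of zone 0. -/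
def sg (L : Lc n) (q : Cst) : ℝ := L.cs q * (q.σ / q.R)

/-- The additional cost of region I at the tubes. -/
def cTu (C : ℝ) (N ρx ρy Z : VV n → ℝ) : Q8 (VV n) where
  κ _ := 0
  ζ₁ _ := 0
  ζ₂ _ := 0
  ζy _ := 0
  w₁ z := C * (N z * (ρx z ^ 2 + ρy z ^ 2) * Z z)
  w₂ z := C * (N z * (ρx z ^ 2 + ρy z ^ 2) * Z z)
  wb _ := 0
  wc _ := 0

/-- **The margins.** -/
def Mz (L : Lc n) : Fam n := fun q d k => match k with
  | .z0 => H165.Tab.M0 (nu L.kz q d) (L.c0 q) (sg L q)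
  | .zI => H165.Tab.MI (nu L.kz q d) (L.cI q) + TL (L.cN q) (Na d) (rx q d) (ry q d)
  | .z2a => H165.Tab.MII (nu L.kz q d)
  | .z2b => H165.Tab.MII (nu L.kz q d)
  | .zB => H165.Tab.MB (nu L.kz q d) (L.cB q)
  | .T1 => H509.PT.MT1 (L.cT q) (Na d)
  | .T2 => H509.PT.MT2 (L.cT q) (Na d)
  | .A1 => H747.SW.MA d.sx d.sy (d.W q) (H747.A.mA L.μA q d) (L.kA q)
  | .A2 => H747.SW.MA d.sx d.sy (d.W q) (H747.A.mA L.μA q d) (L.kA q)
  | .Af => H747.SW.MA d.sx d.sy (d.W q) (H747.A.mA L.μA q d) (L.kA q)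
  | .P1 => H660.P.MP d.sx d.sy (d.W q) (L.GP q d) (L.cP q)
  | .P2 => H660.P.MPm d.sx d.sy (d.W q) (L.GP q d) (L.cP q)
  | k => L.FM k q d

/-- **The costs.** -/
def coz (L : Lc n) (e : Cst → ℝ) : Fam n := fun q d k => match k with
  | .z0 => H165.Tab.c0 (nu L.kz q d) (L.C0 q) (sg L q) (sq1 (d.ch q .z0)) (e q)
  | .zI => H165.Tab.cI (nu L.kz q d) (L.CI q) (sq1 (d.ch q .zI)) (sqp (d.ch q .zI)) +
      cTu (L.CN q) (Na d) (rx q d) (ry q d) (sq1 (d.ch q .zI))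
  | .z2a => H165.Tab.cII (nu L.kz q d) (L.C2 q)
      (Zc (L.K2 q) 1 (rq (gi d.s₁)) (d.E q) (d.N q) (L.kz q d) (d.ch q .z2a))
  | .z2b => H165.Tab.cII (nu L.kz q d) (L.C2 q)
      (Zc (L.K2 q) 1 (rq (gi d.s₁)) (d.E q) (d.N q) (L.kz q d) (d.ch q .z2b))
  | .zB => H165.Tab.cB (nu L.kz q d) (L.CB q) (L.ZB q d) (L.ZB' q d)
  | .T1 => H509.PT.coT1 (L.CT q) (Na d) (H354.T.etx q d)
  | .T2 => H509.PT.coT2 (L.CT q) (Na d) (H354.T.ety q d)
  | .A1 => H747.SW.coA d.sx d.sy (d.W q) (H747.A.mA L.μA q d) (d.ch q .A1) (e q)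
  | .A2 => H747.SW.coA d.sx d.sy (d.W q) (H747.A.mA L.μA q d) (d.ch q .A2) (e q)
  | .Af => H747.SW.coA d.sx d.sy (d.W q) (H747.A.mA L.μA q d) (d.ch q .Af) (e q)
  | .P1 => H660.P.coP d.sx d.sy (d.W q) (L.GP q d) (L.om .P1 q d) (L.CP q)
  | .P2 => H660.P.coPm d.sx d.sy (d.W q) (L.GP q d) (L.om .P2 q d) (L.CP q)
  | k => L.FC k q d

/-- The constants are positive; the constants of the tubes and of the passes are chosen before
`rT`, those of zone II and of the core before `ηc`, all the others before `c'`. -/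
structure Lc.Ok (L : Lc n) : Prop where
  c0 : (∀ q, 0 < L.c0 q) ∧ NB_c' L.c0
  C0 : (∀ q, 0 < L.C0 q) ∧ NB_c' L.C0
  cs : (∀ q, 0 < L.cs q ∧ L.cs q ≤ 1) ∧ NB_c' L.cs
  cI : (∀ q, 0 < L.cI q) ∧ NB_c₀ L.cI
  CI : (∀ q, 0 < L.CI q) ∧ NB_c₀ L.CI
  cN : (∀ q, 0 < L.cN q) ∧ NB_c' L.cN
  CN : (∀ q, 0 < L.CN q) ∧ NB_c' L.CN
  C2 : (∀ q, 0 < L.C2 q) ∧ NB_ηc L.C2
  K2 : (∀ q, 0 < L.K2 q) ∧ NB_ηc L.K2
  cB : (∀ q, 0 < L.cB q) ∧ NB_ηc L.cB
  CB : (∀ q, 0 < L.CB q) ∧ NB_ηc L.CB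
  cT : (∀ q, 0 < L.cT q) ∧ NB_rT L.cT
  CT : (∀ q, 0 < L.CT q) ∧ NB_c' L.CT
  kA : (∀ q, 0 < L.kA q ∧ L.kA q ≤ 1 / 2) ∧ NB_c' L.kA
  μA : (∀ q, 0 < L.μA q) ∧ NB_c' L.μA
  cP : (∀ q, 0 < L.cP q) ∧ NB_rT L.cP
  CP : (∀ q, 0 < L.CP q) ∧ NB_rT L.CP

/-- An admissible small parameter. -/
def SmE (e : Cst → ℝ) : Prop := NB_c' e ∧ ∀ q, 0 < e q

/-- **The payment of the pair `k`, `j`** for all sufficiently small parameters `e`. -/
def PayE (L : Lc n) (k j : Zo) : Prop := ∃ th : Cst → ℝ, SmE th ∧ ∀ e : Cst → ℝ, SmE e →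
  (∀ q, e q ≤ th q) → RowPay (Mz L) (coz L e) k j

/-- **The zone theorem** for all sufficiently small parameters `e`. -/
def ZoE (L : Lc n) (k : Zo) : Prop := ∃ th : Cst → ℝ, SmE th ∧ ∀ e : Cst → ℝ, SmE e →
  (∀ q, e q ≤ th q) → RowZo (Mz L) (coz L e) k

/-- The continuity of the letters for all `e`. -/
def CtE (L : Lc n) : Prop := ∀ e : Cst → ℝ, SmE e → RowCt (Mz L) (coz L e)

theorem SmE.min {e f : Cst → ℝ} (he : SmE e) (hf : SmE f) : SmE fun q => min (e q) (f q) :=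
  ⟨fun q => by simp only [he.1 q, hf.1 q], fun q => lt_min (he.2 q) (hf.2 q)⟩

theorem smE_fin {ι : Type*} (S : Finset ι) {th : ι → Cst → ℝ} (h : ∀ i, SmE (th i)) :
    ∃ e : Cst → ℝ, SmE e ∧ ∀ i ∈ S, ∀ q, e q ≤ th i q := by
  classical
  induction S using Finset.induction_on with
  | empty => exact ⟨fun _ => 1, ⟨fun _ => rfl, fun _ => one_pos⟩, fun i hi => absurd hi
      (Finset.notMem_empty i)⟩
  | insert a S _ ih =>
    obtain ⟨e, he, h1⟩ := ih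
    refine ⟨fun q => min (e q) (th a q), he.min (h a), fun i hi q => ?_⟩
    rcases Finset.mem_insert.1 hi with rfl | hi
    · exact min_le_right _ _
    · exact (min_le_left _ _).trans (h1 i hi q)

/-- **Row Z from the rows of the zones and the pairs.** -/
theorem rowZ_ofL {L : Lc n} {κ₀ ζ₀ g : Cst → ℝ} (hB : RowBas n) (hC : CtE L)
    (hZ : ∀ k, ZoE L k) (hN : RowNn (Mz L) κ₀ ζ₀) (hP : ∀ k j, PayE L k j)
    (hG : RowGain (Mz L) κ₀ g) (hg : EvC fun q => g q * (q.R ^ 2)⁻¹ ≤ ζ₀ q / q.R) :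
    RowZ n (wzF (Mz L)) g := by
  choose t1 h1 h2 using hZ
  choose t2 h3 h4 using hP
  obtain ⟨e1, he1, g1⟩ := smE_fin zos h1
  obtain ⟨e2, he2, g2⟩ := smE_fin (zos ×ˢ zos) fun p : Zo × Zo => h3 p.1 p.2
  have he := he1.min he2
  exact rowZ_of (co := coz L fun q => min (e1 q) (e2 q)) hB (hC _ he)
    (fun k => h2 k _ he fun q => (min_le_left _ _).trans (g1 k (mem_zos k) q)) hN
    (fun k j => h4 k j _ he fun q => (min_le_right _ _).trans
      (g2 (k, j) (Finset.mem_product.2 ⟨mem_zos k, mem_zos j⟩) q)) hG hg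

end Vale.Agent.P088.R2.H455.E
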