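import Vale.Agent.P088.R2.H31.EP.PackL
import Vale.Agent.P088.R2.H551.E.FDef

/-!
# P088, stage 3, EST': the rows of the top assembly

`S4.RowESTh` follows from `RowRD` (data), `PkEx` (existence of the package), `RowWa`, `RowWb` (the
weights in the unit chart) and `RowZ` (the estimate in rate units).
-/

open Set Filter MeasureTheory
open scoped ContDiff Topology Matrix

noncomputable section

namespace Vale.Agent.P088.R2.H455.E

open Vale.Agent.P088.LR Vale.Agent.P088.HY Vale.Agent.P088.HY.T3 Vale.Agent.P088.HY.T4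
open Vale.Agent.P088.R2.H269 (ky Zi Wt)
open Vale.Agent.P088.R2.H31.EP
open Vale.Agent.P088.R2.H551.E (EstF c2)

variable {n : ℕ}

/-- The weight in the unit chart. -/
def WUn (q : Cst) (d : Pk n) (z : VV n) : ℝ :=
  d.W q (q.R • z) - d.Φ (2 * Real.log (d.kap / q.R))

/-- The first half of the fields of `EBh`. -/
structure WtA (σ c C ν R kap Gs : ℝ) (W : VV n → ℝ) : Prop where
  wt : ∃ B, 0 ≤ B ∧ Wt B W
  W1 : ∀ x ∈ Zi n, ∀ y ∈ Zi n, ‖x - y‖ ≤ 1 / R →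
    ν * R * (gy n σ x - Gs) + c * ky n σ R kap Gs x ^ 2 * ‖x - y‖ ^ 2 - C ≤ W (x, y)
  W2 : ∀ p ∈ Ac n (1 / 15) (100 / 99), ∀ z ∈ Metric.ball (p, p) (3 * n / (R ^ C + ky n σ R kap Gs p)),
    W z ≤ ν * max (R * (gy n σ p - Gs)) (-Real.log kap) + C * (1 + Real.log R)
  W3 : ∀ x ∈ Ac n (1 / 21) (100 / 99), ∀ y ∈ Ac n (1 / 21) (10 / 99),
    W (x, y) ≤ -(c * R) ∧ W (y, x) ≤ -(c * R)

/-- The second half of the fields of `EBh`, with `a = 1`, `b = 2`. -/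
structure WtB (σ c C R kap Gs : ℝ) (w : VV n → ℝ) : Prop where
  wc : Continuous w
  w0 : ∀ z, 0 < w z
  w1 : ∀ x ∈ Zi n, ∀ y ∈ Zi n, ‖x - y‖ ≤ 1 / R → kap ^ (1 / 4 : ℝ) ≤ ky n σ R kap Gs x →
    c * R ^ (-C) * kap ^ (1 : ℝ) * Real.exp (-(2 * R * |gy n σ x - Gs|)) ≤ w (x, y)
  w2 : ∀ x ∈ Zi n, ∀ y ∈ Zi n, ‖x - y‖ ≤ 1 / R →
    c * R ^ (-C) * kap ^ (-2 : ℝ) * Real.exp (-(2 * R * |gy n σ x - Gs|)) ≤ w (x, y)

/-- A function of the constants which does not depend on `R`. -/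
def NoR (f : Cst → ℝ) : Prop := ∀ (q : Cst) (R : ℝ), f { q with R := R } = f q

/-- A function of the constants up to `M₀`. -/
def NoM (f : Cst → ℝ) : Prop := ∀ (q : Cst) (kv ε η Ck R : ℝ),
  f { q with kv := kv, ε := ε, η := η, Ck := Ck, R := R } = f q

/-- **Row WtA** (W1, W2, W3 and the bounds of the weight). `q.Nt` is the slope at `+∞`. -/
def RowWa (n : ℕ) : Prop := ∃ c C : Cst → ℝ, NoR c ∧ NoR C ∧ EvC fun q =>
  0 < c q ∧ 0 ≤ C q ∧ ∀ d : Pk n, PkOk q d →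
    WtA q.σ (c q) (C q) (2 * q.Nt) q.R d.kap d.Gs (WUn q d)

/-- **Row WtB** (the margin of `a² + b²`); `wz q d` is the margin in rate units. -/
def RowWb (n : ℕ) (wz : Cst → Pk n → VV n → ℝ) : Prop := ∃ c C : Cst → ℝ, NoR c ∧ NoR C ∧
  EvC fun q => 0 < c q ∧ 0 ≤ C q ∧ ∀ d : Pk n, PkOk q d →
    WtB q.σ (c q) (C q) q.R d.kap d.Gs (fun z => q.R ^ 4 * wz q d (q.R • z))

/-- The cut of the gains in rate units. -/
def cR (n : ℕ) (R : ℝ) (x : V n) : ℝ := c2 (R⁻¹ • x)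

/-- The gain of order zero in rate units. -/
def G0 (R : ℝ) : ℝ := R ^ (-(7 / 2) : ℝ)

/-- **Row Z**: the estimate in rate units, with the gain `g / R²` of first order and the gain
`R^(-7/2)` of order zero. -/
def RowZ (n : ℕ) (wz : Cst → Pk n → VV n → ℝ) (g : Cst → ℝ) : Prop := EvC fun q => 0 < g q ∧
  ∀ d : Pk n, PkOk q d →
    EstF d.s₁ d.s₂ (d.W q) (wz q d) (g q * (q.R ^ 2)⁻¹) (G0 q.R) (cR n q.R)

end Vale.Agent.P088.R2.H455.E
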