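import Vale.Agent.P088.R2.H455.E.Rows
import Vale.Agent.P088.R2.H509.EP.Lit
import Vale.Agent.P088.R2.H551.E.EstF
import Vale.Agent.P088.R2.H850.E.Ws

/-!
# P088, stage 3, EST': the estimate in rate units from the zones

`M q d k`, `co q d k`: margin (without the factor `χ_k²`) and cost of the zone `k`.
-/

open Set Filter MeasureTheory
open scoped ContDiff Topology Matrix

noncomputable section

namespace Vale.Agent.P088.R2.H455.E

open Vale.Agent.P088.LR Vale.Agent.P088.HY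
open Vale.Agent.P088.R2.H31.EP
open Vale.Agent.P088.R2.H551.E
open Vale.Agent.P088.R2.H961.GW
open Vale.Agent.P088.R2.H867.EP (Zo zos mem_zos)
open Vale.Agent.P088.R2.H850.E (lw Nn mw ws glue_ws ws_ge ws_cont mw_ct mw_dens)

variable {n : ℕ}

/-- A family of letters: one `Q8` for each zone. -/
abbrev Fam (n : ℕ) : Type := Cst → Pk n → Zo → Q8 (VV n)

/-- The density in the slots of the package. -/
abbrev den (d : Pk n) (q : Cst) (p : Q8 (VV n)) (a b : VV n → ℝ) (z : VV n) : ℝ :=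
  fden d.s₁ d.s₂ (fun _ => 0) (fun _ => 0) (d.W q) p a b z

/-- **Row BAS** (helper912): smoothness, symmetry, ellipticity. -/
structure Bas (q : Cst) (d : Pk n) : Prop where
  s₁ : SmM d.s₁
  s₂ : SmM d.s₂
  y₁ : ∀ x, (d.s₁ x).IsSymm
  y₂ : ∀ x, (d.s₂ x).IsSymm
  e₁ : El d.s₁
  e₂ : El d.s₂
  W : ContDiff ℝ ∞ (d.W q)
  ch : ∀ k, ContDiff ℝ ∞ (d.ch q k)

def RowBas (n : ℕ) : Prop := EvC fun q => ∀ d : Pk n, PkOk q d → Bas q d

/-- **Row Ct** (helper341): continuity of the coefficients. -/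
def RowCt (M co : Fam n) : Prop := EvC fun q => ∀ d : Pk n, PkOk q d → ∀ k,
  ((M q d k).sm fun z => d.ch q k z ^ 2).Ct univ ∧ (co q d k).Ct univ

/-- The zone theorem of the zone `k`. -/
def RowZo (M co : Fam n) (k : Zo) : Prop := ZoneThm n (fun q d => d.ch q k)
  (fun q d => (M q d k).sm fun z => d.ch q k z ^ 2) fun q d => co q d k

/-- **Row Nn** (helper349, helper238): the coefficients are nonnegative, lower bounds of the gains. -/
def RowNn (M : Fam n) (κ₀ ζ₀ : Cst → ℝ) : Prop := EvC fun q => 0 < κ₀ q ∧ 0 < ζ₀ q ∧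
  ∀ d : Pk n, PkOk q d → ∀ k z, d.ch q k z ≠ 0 → Nn (M q d k) z ∧
    4 * κ₀ q ≤ (M q d k).κ z ∧ 4 * (ζ₀ q / q.R) ≤ (M q d k).ζ₁ z ∧
    4 * (ζ₀ q / q.R) ≤ (M q d k).ζ₂ z

/-- **The payment of the pair `k`, `j`**: the zone `j` pays the cost of the zone `k`. -/
def RowPay (M co : Fam n) (k j : Zo) : Prop := EvC fun q => ∀ d : Pk n, PkOk q d →
  ∀ z, d.ch q j z ≠ 0 → ∀ a b : VV n → ℝ,
    34 * den d q (co q d k) a b z ≤ den d q (M q d j) a b z

/-- The cost of the gains, at `z` (`d = 0`). -/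
def gy0 (q : Cst) (d : Pk n) (K g : ℝ) (z : VV n) : ℝ :=
  cy d.s₁ d.s₂ (d.W q) (cR n q.R) (g * (q.R ^ 2)⁻¹) 0 K z

def gx0 (q : Cst) (d : Pk n) (K g : ℝ) (z : VV n) : ℝ :=
  cx d.s₁ d.s₂ (d.W q) (cR n q.R) (g * (q.R ^ 2)⁻¹) 0 K z

/-- **Row Gain** (helper935, helper551): the zones pay for the gains. -/
def RowGain (M : Fam n) (κ₀ g : Cst → ℝ) : Prop := EvC fun q => 0 < g q ∧
  ∀ d : Pk n, PkOk q d → ∀ k z, d.ch q k z ≠ 0 →
    8 * (G0 q.R + gy0 q d (κ₀ q) (g q) z) ≤ lw (M q d k) z ∧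
    8 * (G0 q.R + gx0 q d (κ₀ q) (g q) z) ≤ lw (M q d k) z

/-- The weight of the estimate. -/
def wzF (M : Fam n) (q : Cst) (d : Pk n) (z : VV n) : ℝ := ws zos (d.ch q) (M q d) z / 2

/-- The half of the weight. -/
theorem RowWb.half {wz : Cst → Pk n → VV n → ℝ} (h : RowWb n wz) :
    RowWb n fun q d z => wz q d z / 2 := by
  obtain ⟨c, C, hc, hC, h⟩ := h
  refine ⟨fun q => c q / 2, C, fun q R => by simp only [hc q R], hC, h.mono fun q hq => ?_⟩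
  refine ⟨by linarith [hq.1], hq.2.1, fun d ok => ?_⟩
  have h1 := hq.2.2 d ok
  have e : (fun z : VV n => q.R ^ 4 * (wz q d (q.R • z) / 2)) =
      fun z => (1 / 2 : ℝ) * (q.R ^ 4 * wz q d (q.R • z)) := by
    funext z; ring
  rw [e]
  refine ⟨continuous_const.mul h1.wc, fun z => mul_pos (by norm_num) (h1.w0 z),
    fun x hx y hy hxy hk => ?_, fun x hx y hy hxy => ?_⟩
  · have := h1.w1 x hx y hy hxy hk
    simp only
    linarith
  · have := h1.w2 x hx y hy hxy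
    simp only
    linarith

theorem card_zos : zos.card = 17 := by decide

theorem evFin {ι : Type*} (S : Finset ι) {P : ι → Cst → Prop} (h : ∀ k, EvC (P k)) :
    EvC fun q => ∀ k ∈ S, P k q := by
  classical
  induction S using Finset.induction_on with
  | empty => exact EvC.of fun q k hk => absurd hk (Finset.notMem_empty k)
  | insert k S _ ih =>
    refine ((h k).and ih).mono fun q hq j hj => ?_
    rcases Finset.mem_insert.1 hj with rfl | hj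
    · exact hq.1
    · exact hq.2 j hj

theorem evZo {P : Zo → Cst → Prop} (h : ∀ k, EvC (P k)) : EvC fun q => ∀ k, P k q :=
  (evFin zos h).mono fun _ hq k => hq k (mem_zos k)

/-- All the properties at one `q`. -/
structure TopOk (M co : Fam n) (κ₀ ζ₀ g : Cst → ℝ) (q : Cst) : Prop where
  bas : ∀ d : Pk n, PkOk q d → Bas q d
  ct : ∀ d : Pk n, PkOk q d → ∀ k,
    ((M q d k).sm fun z => d.ch q k z ^ 2).Ct univ ∧ (co q d k).Ct univ
  zo : ∀ k, ∀ d : Pk n, PkOk q d → d.Zone q (d.ch q k)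
    ((M q d k).sm fun z => d.ch q k z ^ 2) (co q d k)
  κ0 : 0 < κ₀ q
  nn : ∀ d : Pk n, PkOk q d → ∀ k z, d.ch q k z ≠ 0 → Nn (M q d k) z ∧
    4 * κ₀ q ≤ (M q d k).κ z ∧ 4 * (ζ₀ q / q.R) ≤ (M q d k).ζ₁ z ∧
    4 * (ζ₀ q / q.R) ≤ (M q d k).ζ₂ z
  pay : ∀ k j, ∀ d : Pk n, PkOk q d → ∀ z, d.ch q j z ≠ 0 → ∀ a b : VV n → ℝ,
    34 * den d q (co q d k) a b z ≤ den d q (M q d j) a b z
  g0 : 0 < g q
  gn : ∀ d : Pk n, PkOk q d → ∀ k z, d.ch q k z ≠ 0 →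
    8 * (G0 q.R + gy0 q d (κ₀ q) (g q) z) ≤ lw (M q d k) z ∧
    8 * (G0 q.R + gx0 q d (κ₀ q) (g q) z) ≤ lw (M q d k) z
  g1 : g q * (q.R ^ 2)⁻¹ ≤ ζ₀ q / q.R
  R1 : 1 ≤ q.R

/-- The estimate for one package. -/
theorem TopOk.est {M co : Fam n} {κ₀ ζ₀ g : Cst → ℝ} {q : Cst} (h : TopOk M co κ₀ ζ₀ g q)
    {d : Pk n} (ok : PkOk q d) :
    EstF d.s₁ d.s₂ (d.W q) (wzF M q d) (g q * (q.R ^ 2)⁻¹) (G0 q.R) (cR n q.R) := by
  have B := h.bas d ok
  have C := h.ct d ok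
  have hR := h.R1
  have hR0 : 0 < q.R := by linarith
  have h1 : ∀ z, ∑ k ∈ zos, d.ch q k z ^ 2 = 1 := d.ch_sum q
  have cws : Continuous (ws zos (d.ch q) (M q d)) :=
    continuousOn_univ.1 (ws_cont fun k _ => (C k).1)
  have hc2 : ContDiff ℝ ∞ (cR n q.R) := c2_smooth.comp (contDiff_const_smul _)
  have hc0 : ∀ x, 0 ≤ cR n q.R x := fun x => c2_nonneg _
  have hc1 : ∀ x, cR n q.R x ≤ 1 := fun x => c2_le_one _
  have he : 0 ≤ g q * (q.R ^ 2)⁻¹ := by have := h.g0; positivity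
  refine EstF_of (w := wzF M q d) (G := G0 q.R) (e := g q * (q.R ^ 2)⁻¹) (d := 0)
    (K := κ₀ q) B.s₁ B.s₂ B.y₁ B.y₂ B.e₁ B.e₂ B.W (cws.div_const 2) hc2 hc0
    (m := mw (fun _ => κ₀ q) (fun _ => ζ₀ q / q.R) (ws zos (d.ch q) (M q d)))
    (mw_ct continuousOn_const continuousOn_const cws.continuousOn) ?_ he le_rfl h.κ0
    (fun _ => le_rfl) (fun _ => le_rfl) (fun _ => le_rfl) (fun _ => le_rfl) ?_ ?_ ?_ ?_
  · intro a b ta tb
    have h := glue_ws (σ := fx d.s₁) (τ := fy d.s₂) (U := univ) (θ := fun _ => 1)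
      (v₁ := fun _ => 0) (v₂ := fun _ => 0) (W := d.W q) (a := a) (b := b)
      (fx_ok B.s₁ B.y₁ isOpen_univ) (fy_ok B.s₂ B.y₂ isOpen_univ)
      (f_cm B.s₁ B.s₂ isOpen_univ) contDiffOn_const contDiffOn_const
      (fun z _ k => D_const _ 0 k z) (fun z _ i => D_const _ 0 i z) B.W.contDiffOn zos
      (χ := d.ch q) (fun k _ => (B.ch k).contDiffOn) (fun z _ => h1 z) (M := M q d) (co := co q d)
      (κ₀ := fun _ => κ₀ q) (ζ₀ := fun _ => ζ₀ q / q.R) continuousOn_const continuousOn_const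
      (fun k _ => (C k).1) (fun k _ => (C k).2) (fun k _ => h.zo k d ok)
      (fun z _ j _ hj => (h.nn d ok j z hj).1) (fun z _ j _ hj => (h.nn d ok j z hj).2.1)
      (fun z _ j _ hj => (h.nn d ok j z hj).2.2.1)
      (fun z _ j _ hj => (h.nn d ok j z hj).2.2.2) (fun z _ k _ j _ hj a b => ?_) ta tb
    · refine le_trans (le_of_eq ?_) h
      refine In_congr isOpen_univ fun z _ => ?_
      exact mw_dens _ _ _
    · have := h.pay k j d ok z hj a b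
      rw [card_zos]
      norm_num
      linarith
  · intro z
    have h2 := mul_le_mul_of_nonneg_left (hc1 z.1) he
    have h3 := h.g1
    show g q * (q.R ^ 2)⁻¹ * cR n q.R z.1 + 2 * 0 ≤ ζ₀ q / q.R
    linarith
  · intro z
    have h2 := mul_le_mul_of_nonneg_left (hc1 z.2) he
    have h3 := h.g1
    show g q * (q.R ^ 2)⁻¹ * cR n q.R z.2 + 2 * 0 ≤ ζ₀ q / q.R
    linarith
  · intro z
    have h2 := ws_ge (h1 z) fun k _ hk => (h.gn d ok k z hk).1
    show wzF M q d z + G0 q.R + gy0 q d (κ₀ q) (g q) z ≤ ws zos (d.ch q) (M q d) z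
    unfold wzF
    linarith
  · intro z
    have h2 := ws_ge (h1 z) fun k _ hk => (h.gn d ok k z hk).2
    show wzF M q d z + G0 q.R + gx0 q d (κ₀ q) (g q) z ≤ ws zos (d.ch q) (M q d) z
    unfold wzF
    linarith

/-- **Row Z from the rows of the zones.** -/
theorem rowZ_of {M co : Fam n} {κ₀ ζ₀ g : Cst → ℝ} (hB : RowBas n) (hC : RowCt M co)
    (hZ : ∀ k, RowZo M co k) (hN : RowNn M κ₀ ζ₀) (hP : ∀ k j, RowPay M co k j)
    (hG : RowGain M κ₀ g) (hg : EvC fun q => g q * (q.R ^ 2)⁻¹ ≤ ζ₀ q / q.R) :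
    RowZ n (wzF M) g := by
  have hZ' : EvC fun q => ∀ k, ∀ d : Pk n, PkOk q d → d.Zone q (d.ch q k)
      ((M q d k).sm fun z => d.ch q k z ^ 2) (co q d k) :=
    evZo (P := fun k q => ∀ d : Pk n, PkOk q d → d.Zone q (d.ch q k)
      ((M q d k).sm fun z => d.ch q k z ^ 2) (co q d k)) hZ
  have hP' : EvC fun q => ∀ k j, ∀ d : Pk n, PkOk q d → ∀ z, d.ch q j z ≠ 0 →
      ∀ a b : VV n → ℝ, 34 * den d q (co q d k) a b z ≤ den d q (M q d j) a b z :=
    evZo (P := fun k q => ∀ j, ∀ d : Pk n, PkOk q d → ∀ z, d.ch q j z ≠ 0 →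
      ∀ a b : VV n → ℝ, 34 * den d q (co q d k) a b z ≤ den d q (M q d j) a b z) fun k =>
      evZo (P := fun j q => ∀ d : Pk n, PkOk q d → ∀ z, d.ch q j z ≠ 0 →
      ∀ a b : VV n → ℝ, 34 * den d q (co q d k) a b z ≤ den d q (M q d j) a b z) fun j => hP k j
  have hA : EvC (TopOk M co κ₀ ζ₀ g) := by
    refine EvC.mono (Q := TopOk M co κ₀ ζ₀ g)
      (((((EvC.and hB hC).and (EvC.and hZ' hP')).and (EvC.and hN hG)).and hg).and EvC.pos) ?_
    rintro q ⟨⟨⟨⟨⟨b, c⟩, z, p⟩, ⟨k0, -, nn⟩, g0, gn⟩, g1⟩, h⟩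
    exact { bas := b, ct := c, zo := z, κ0 := k0, nn := nn, pay := p, g0 := g0, gn := gn,
            g1 := g1, R1 := h.2.2.2.2.2.2.2 }
  exact EvC.mono (Q := fun q => 0 < g q ∧ ∀ d : Pk n, PkOk q d →
    EstF d.s₁ d.s₂ (d.W q) (wzF M q d) (g q * (q.R ^ 2)⁻¹) (G0 q.R) (cR n q.R)) hA
    fun q h => ⟨h.g0, fun d ok => h.est ok⟩

end Vale.Agent.P088.R2.H455.E
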