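import Vale.Agent.P088.R2.H455.E.Rows
import Vale.Agent.P088.R2.H561.S4.SpecH

/-!
# P088, stage 3, EST': from the rows to `RowESTh`
-/

open Set Filter MeasureTheory
open scoped ContDiff Topology Matrix

noncomputable section

namespace Vale.Agent.P088.R2.H455.E

open Vale.Agent.P088.LR Vale.Agent.P088.HY Vale.Agent.P088.HY.T3 Vale.Agent.P088.HY.T4
open Vale.Agent.P088.R2.H269 (ky Zi Wt QX QY PX PY)
open Vale.Agent.P088.R2.H31.EP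
open Vale.Agent.P088.R2.H551.E (EstF EstF_unit EstF.est EstF.mono c2 c2_nonneg)
open Vale.Agent.P088.S4 (Ivg EBh RowESTh)

variable {n : ℕ}

/-- Weaker constants. -/
theorem WtA.mono {σ c C ν R kap Gs c' C' : ℝ} {W : VV n → ℝ} (h : WtA σ c C ν R kap Gs W)
    (hc : c' ≤ c) (hC : C ≤ C') (hR : 1 ≤ R) (hk : 0 < kap) : WtA σ c' C' ν R kap Gs W where
  wt := h.wt
  W1 x hx y hy hxy := by
    have h1 := h.W1 x hx y hy hxy
    have h2 : c' * ky n σ R kap Gs x ^ 2 * ‖x - y‖ ^ 2 ≤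
        c * ky n σ R kap Gs x ^ 2 * ‖x - y‖ ^ 2 := by gcongr
    linarith
  W2 p hp z hz := by
    have hky : 0 < ky n σ R kap Gs p := by unfold H269.ky; positivity
    have hR0 : 0 < R := by linarith
    have h3 : R ^ C ≤ R ^ C' := Real.rpow_le_rpow_of_exponent_le hR hC
    have h4 : 0 < R ^ C := Real.rpow_pos_of_pos hR0 _
    have h1 := h.W2 p hp z (Metric.ball_subset_ball (by gcongr) hz)
    have h2 := Real.log_nonneg hR
    have h5 : C * (1 + Real.log R) ≤ C' * (1 + Real.log R) := by gcongr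
    linarith
  W3 x hx y hy := by
    have hR0 : 0 < R := by linarith
    obtain ⟨h1, h2⟩ := h.W3 x hx y hy
    have h3 : c' * R ≤ c * R := by gcongr
    exact ⟨by linarith, by linarith⟩

theorem WtB.mono {σ c C R kap Gs c' C' : ℝ} {w : VV n → ℝ} (h : WtB σ c C R kap Gs w)
    (hc0 : 0 ≤ c') (hc : c' ≤ c) (hC : C ≤ C') (hR : 1 ≤ R) (hk : 0 < kap) :
    WtB σ c' C' R kap Gs w := by
  have hR0 : 0 < R := by linarith
  have h3 : R ^ (-C') ≤ R ^ (-C) := Real.rpow_le_rpow_of_exponent_le hR (by linarith)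
  have h4 : 0 ≤ R ^ (-C') := (Real.rpow_pos_of_pos hR0 _).le
  have h5 : c' * R ^ (-C') ≤ c * R ^ (-C) := mul_le_mul hc h3 h4 (hc0.trans hc)
  refine ⟨h.wc, h.w0, fun x hx y hy hxy hk1 => le_trans ?_ (h.w1 x hx y hy hxy hk1),
    fun x hx y hy hxy => le_trans ?_ (h.w2 x hx y hy hxy)⟩
  · exact mul_le_mul_of_nonneg_right (mul_le_mul_of_nonneg_right h5
      (Real.rpow_pos_of_pos hk _).le) (Real.exp_pos _).le
  · exact mul_le_mul_of_nonneg_right (mul_le_mul_of_nonneg_right h5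
      (Real.rpow_pos_of_pos hk _).le) (Real.exp_pos _).le

theorem NoR.min {f g : Cst → ℝ} (hf : NoR f) (hg : NoR g) : NoR fun q => min (f q) (g q) :=
  fun q R => by simp only [hf q R, hg q R]

theorem smul_inv_cont {w : VV n → ℝ} {R : ℝ} (hR : 0 < R)
    (h : Continuous fun z => R ^ 4 * w (R • z)) : Continuous w := by
  have h1 : Continuous fun z : VV n => R⁻¹ ^ 4 * (R ^ 4 * w (R • (R⁻¹ • z))) :=
    continuous_const.mul (h.comp (continuous_const_smul R⁻¹))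
  have e : (fun z : VV n => R⁻¹ ^ 4 * (R ^ 4 * w (R • (R⁻¹ • z)))) = w := by
    funext z
    rw [smul_smul, mul_inv_cancel₀ hR.ne', one_smul, ← mul_assoc, ← mul_pow,
      inv_mul_cancel₀ hR.ne', one_pow, one_mul]
  rwa [e] at h1

theorem smul_inv_smooth {W : VV n → ℝ} {R c : ℝ} (hR : 0 < R)
    (h : ContDiff ℝ ∞ fun z => W (R • z) - c) : ContDiff ℝ ∞ W := by
  have h1 : ContDiff ℝ ∞ fun z : VV n => (W (R • (R⁻¹ • z)) - c) + c :=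
    (h.comp (contDiff_const_smul R⁻¹)).add contDiff_const
  have e : (fun z : VV n => (W (R • (R⁻¹ • z)) - c) + c) = W := by
    funext z
    rw [smul_smul, mul_inv_cancel₀ hR.ne', one_smul]
    ring
  rwa [e] at h1

/-- The predicate at the end of the chain. -/
structure Good (n : ℕ) (wz : Cst → Pk n → VV n → ℝ) (g ca Ca cb Cb : Cst → ℝ)
    (q : Cst) : Prop where
  a : 0 < ca q ∧ 0 ≤ Ca q ∧ ∀ d : Pk n, PkOk q d →
    WtA q.σ (ca q) (Ca q) (2 * q.Nt) q.R d.kap d.Gs (WUn q d)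
  b : 0 < cb q ∧ 0 ≤ Cb q ∧ ∀ d : Pk n, PkOk q d →
    WtB q.σ (cb q) (Cb q) q.R d.kap d.Gs (fun z => q.R ^ 4 * wz q d (q.R • z))
  z : 0 < g q ∧ ∀ d : Pk n, PkOk q d →
    EstF d.s₁ d.s₂ (d.W q) (wz q d) (g q * (q.R ^ 2)⁻¹) (G0 q.R) (cR n q.R)
  ex : ∀ (s₁ s₂ : MF n) (kap Gs : ℝ),
    Rg 12 q.ε 100 q.σ q.R kap Gs s₁ s₂ → -q.η ≤ Gs → Gs ≤ 0 → 1 ≤ kap → q.R ^ q.Ck ≤ kap →
    kap ≤ Real.exp (q.η * q.R) → ∃ d : Pk n, PkOk q d ∧ d.s₁ = s₁ ∧ d.s₂ = s₂ ∧ d.kap = kap ∧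
      d.Gs = Gs
  ph : ∀ Ms : ℝ, ∃ ν₀ : ℝ, ∀ ν : ℝ, ν₀ ≤ ν → ∃ M₀ : ℝ, Ms ≤ M₀ ∧
    2 * ({ q with M₀ := M₀ } : Cst).Nt = ν

theorem good_ev {wz : Cst → Pk n → VV n → ℝ} {g : Cst → ℝ} (hEx : PkEx n)
    (hA : RowWa n) (hB : RowWb n wz) (hZ : RowZ n wz g) : ∃ ca Ca cb Cb : Cst → ℝ,
    NoR ca ∧ NoR Ca ∧ NoR cb ∧ NoR Cb ∧ EvC (Good n wz g ca Ca cb Cb) := by
  obtain ⟨ca, Ca, h1, h2, h3⟩ := hA
  obtain ⟨cb, Cb, h4, h5, h6⟩ := hB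
  refine ⟨ca, Ca, cb, Cb, h1, h2, h4, h5, ?_⟩
  exact ((((h3.and h6).and hZ).and hEx).and EvC.hit).mono fun q h =>
    ⟨h.1.1.1.1, h.1.1.1.2, h.1.1.2, h.1.2, h.2⟩

/-- **The closing.** -/
theorem rowESTh (hRD : RowRD) {wz : ∀ n, Cst → Pk n → VV n → ℝ} {g : ℕ → Cst → ℝ}
    (hg : ∀ n, NoM (g n)) (hEx : ∀ n, 3 ≤ n → PkEx n)
    (hA : ∀ n, 3 ≤ n → RowWa n) (hB : ∀ n, 3 ≤ n → RowWb n (wz n))
    (hZ : ∀ n, 3 ≤ n → RowZ n (wz n) (g n)) : RowESTh := by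
  intro n hn
  obtain ⟨ca, Ca, cb, Cb, nca, nCa, ncb, nCb, hE⟩ :=
    good_ev (hEx n hn) (hA n hn) (hB n hn) (hZ n hn)
  obtain ⟨q₀, ⟨hσ, hσ1⟩, hM⟩ := hE.choose
  -- the slope takes all large values
  have hph : ∀ Ms : ℝ, ∃ ν₀ : ℝ, ∀ ν : ℝ, ν₀ ≤ ν → ∃ M₀ : ℝ, Ms ≤ M₀ ∧
      2 * ({ q₀ with M₀ := M₀ } : Cst).Nt = ν := by
    obtain ⟨M, h1⟩ := hM.exists
    obtain ⟨kv, h1⟩ := h1.exists
    obtain ⟨ε, h1⟩ := h1.exists
    obtain ⟨η, h1⟩ := h1.exists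
    obtain ⟨Ck, h1⟩ := h1.exists
    obtain ⟨R, h1⟩ := h1.exists
    exact h1.ph
  obtain ⟨Ms, hMs⟩ := eventually_atTop.1 hM
  obtain ⟨ν₀, hν₀⟩ := hph Ms
  refine ⟨q₀.σ, 1, 2, max ν₀ 200, hσ, hσ1, one_pos, by norm_num, by norm_num, fun ν hν => ?_⟩
  obtain ⟨M₀, hM₀, hNt⟩ := hν₀ ν ((le_max_left _ _).trans hν)
  obtain ⟨kv, hkv⟩ := (hMs M₀ hM₀).exists
  obtain ⟨ε, hε, hε0⟩ := (hkv.and sml_pos).exists
  obtain ⟨η, hη, hη0, hη1⟩ := (hε.and (sml_pos.and (sml_le (a := 1 / 10) (by norm_num)))).exists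
  obtain ⟨Ck, hCk, hCk1⟩ := (hη.and (eventually_ge_atTop 1)).exists
  obtain ⟨R₁, hR₁⟩ := eventually_atTop.1 hCk
  set q₁ : Cst := { q₀ with M₀ := M₀, kv := kv, ε := ε, η := η, Ck := Ck, R := R₁ } with hq₁
  have g₁ : Good n (wz n) (g n) ca Ca cb Cb q₁ := hR₁ R₁ le_rfl
  refine ⟨1, g n q₁, zero_le_one, g₁.z.1, fun G₀ hG₀ => ?_⟩
  obtain ⟨R₂, hR₂1, hR₂⟩ := hRD n hn 12 ε 100 ν hε0 (by norm_num)
    (by linarith [(le_max_right ν₀ 200).trans hν])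
  have c0 : 0 < min (ca q₁) (cb q₁) := lt_min g₁.a.1 g₁.b.1
  have hC1 : 1 ≤ max Ck (max (Ca q₁) (Cb q₁)) := hCk1.trans (le_max_left _ _)
  refine ⟨12, ε / 2, min (ca q₁) (cb q₁), max Ck (max (Ca q₁) (Cb q₁)), η,
    max (max R₁ R₂) (max 1 (G₀ ^ 2)), by positivity, c0, by linarith, hη0, ?_⟩
  intro s₁ s₂ hI R kap Gs hR hR1 hG1 hG2 hk1 hkC hkη hdf
  have hRR₁ : R₁ ≤ R := ((le_max_left _ _).trans (le_max_left _ _)).trans hR
  have hRR₂ : R₂ ≤ R := ((le_max_right _ _).trans (le_max_left _ _)).trans hR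
  have hRG : G₀ ^ 2 ≤ R := ((le_max_right _ _).trans (le_max_right _ _)).trans hR
  have hR0 : 0 < R := by linarith
  have hk0 : 0 < kap := by linarith
  set q : Cst := { q₀ with M₀ := M₀, kv := kv, ε := ε, η := η, Ck := Ck, R := R } with hq
  have gd : Good n (wz n) (g n) ca Ca cb Cb q := hR₁ R hRR₁
  have eca : ca q = ca q₁ := nca q₁ R
  have eCa : Ca q = Ca q₁ := nCa q₁ R
  have ecb : cb q = cb q₁ := ncb q₁ R
  have eCb : Cb q = Cb q₁ := nCb q₁ R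
  have eg : g n q = g n q₁ := hg n q₁ kv ε η Ck R
  have hrg : Rg 12 ε 100 q₀.σ R kap Gs (rM R s₁) (rM R s₂) :=
    hR₂ q₀.σ s₁ s₂ hσ hσ1 hI R kap Gs η _ hRR₂ hη1 hG1 hG2 hC1 hkC hkη hdf
  obtain ⟨d, hd, hd1, hd2, hd3, hd4⟩ := gd.ex (rM R s₁) (rM R s₂) kap Gs hrg hG1 hG2 hk1
    ((Real.rpow_le_rpow_of_exponent_le hR1 (le_max_left _ _)).trans hkC) hkη
  have hNtq : 2 * q.Nt = ν := hNt
  have A := (gd.a.2.2 d hd).mono (c' := min (ca q₁) (cb q₁))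
    (C' := max Ck (max (Ca q₁) (Cb q₁))) (by rw [eca]; exact min_le_left _ _)
    (by rw [eCa]; exact (le_max_left _ _).trans (le_max_right _ _)) hR1 (by rw [hd3]; exact hk0)
  have B := (gd.b.2.2 d hd).mono (c' := min (ca q₁) (cb q₁))
    (C' := max Ck (max (Ca q₁) (Cb q₁))) c0.le (by rw [ecb]; exact min_le_right _ _)
    (by rw [eCb]; exact (le_max_right _ _).trans (le_max_right _ _)) hR1 (by rw [hd3]; exact hk0)
  rw [hd3, hd4] at A B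
  rw [hNtq] at A
  have hE := gd.z.2 d hd
  rw [hd1, hd2, eg] at hE
  have hU : EstF s₁ s₂ (WUn q d) (fun z => R ^ 4 * wz n q d (R • z))
      (R ^ 2 * (g n q₁ * (R ^ 2)⁻¹)) (R ^ 4 * G0 R) c2 :=
    EstF_unit (c := c2) hR0 (d.Φ (2 * Real.log (d.kap / R))) hE
  have e2 : R ^ 2 * (g n q₁ * (R ^ 2)⁻¹) = g n q₁ := by
    have : R ^ 2 ≠ 0 := by positivity
    field_simp
  have e4 : R ^ 4 * G0 R = √R := by
    unfold G0
    rw [← Real.rpow_natCast, ← Real.rpow_add hR0, Real.sqrt_eq_rpow]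
    norm_num
  rw [e2, e4] at hU
  have hG : G₀ ≤ √R := Real.le_sqrt_of_sq_le hRG
  have hV := hU.mono (g' := g n q₁) (G' := G₀) (w' := fun z => R ^ 4 * wz n q d (R • z)) le_rfl hG
    c2_nonneg B.wc B.wc (fun _ => le_rfl)
  exact ⟨WUn q d, fun z => R ^ 4 * wz n q d (R • z),
    { wt := A.wt
      wc := B.wc
      w0 := B.w0
      W1 := A.W1
      W2 := A.W2
      W3 := A.W3
      w1 := B.w1
      w2 := B.w2
      est := hV.est le_rfl }⟩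

end Vale.Agent.P088.R2.H455.E
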